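import Vale.Agent.P338.R3.H772.EndProof

/-!
P338-D: the three-stage end (real analysis only, no machines are constructed here).

`kap A n = T_A(n) / n`, `Lg n = 1 + log n`.
`StageA A B`: the core program with selector bits only (`d = 0`), black box `A`.
`StageB A B`: the core program with digits, black box `A`.
`fastAlways_three`: schoolbook machine, two times stage A, one time stage B.
-/

namespace Vale.Agent.P338.R3.H831

open Vale.Agent.P338.R2.H898 Vale.Agent.P338.R3.H772 Filter Topology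

/-- The cost per bit. -/
noncomputable def kap (A : MTM) (n : ℕ) : ℝ := (mulTime A n : ℝ) / n

/-- `1 + log n`. -/
noncomputable def Lg (n : ℕ) : ℝ := 1 + Real.log n

theorem kap_nonneg (A : MTM) (n : ℕ) : 0 ≤ kap A n := by unfold kap; positivity

theorem one_le_Lg {n : ℕ} (hn : 1 ≤ n) : 1 ≤ Lg n := by
  have h : (1 : ℝ) ≤ n := by exact_mod_cast hn
  have := Real.log_nonneg h
  unfold Lg
  linarith

/-- `1 + log (C x ^ K) ≤ C' (1 + log x)`. -/
theorem one_add_log_le {C : ℝ} (K : ℕ) (hC : 0 < C) : ∃ C' : ℝ, 1 ≤ C' ∧ ∀ x y : ℝ, 1 ≤ x →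
    1 ≤ y → y ≤ C * x ^ K → 1 + Real.log y ≤ C' * (1 + Real.log x) := by
  refine ⟨1 + |Real.log C| + K, ?_, fun x y hx hy hyx => ?_⟩
  · have := abs_nonneg (Real.log C)
    have hK : (0 : ℝ) ≤ K := Nat.cast_nonneg _
    linarith
  have h1 : Real.log y ≤ Real.log (C * x ^ K) := Real.log_le_log (by linarith) hyx
  rw [Real.log_mul hC.ne' (by positivity), Real.log_pow] at h1
  have h2 := le_abs_self (Real.log C)
  have h3 := Real.log_nonneg hx
  have h4 := abs_nonneg (Real.log C)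
  have hK : (0 : ℝ) ≤ K := Nat.cast_nonneg _
  nlinarith [mul_nonneg h4 h3, mul_nonneg hK h3]

/-- **The core with selector bits only.** -/
def StageA (A B : MTM) : Prop :=
  ∃ (C : ℝ) (K : ℕ) (b l : ℕ → ℕ) (σ : ℕ → ℝ), 0 < C ∧ ∀ n, 1 ≤ n →
    (1 ≤ b n ∧ (b n : ℝ) ≤ C * Lg n ^ K) ∧ (1 ≤ l n ∧ (l n : ℝ) ≤ C * Lg n ^ K) ∧
    σ n ≤ C * (1 + Real.log (Lg n)) ^ K ∧
    (mulTime B n : ℝ) ≤ C * n * (Lg n * (σ n + kap A (b n)) + kap A (l n))

/-- **The core with digits.** `θ < 1`: there are at most `C (log n) ^ θ` passes with products of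
words, and the logarithm of the length of a cell is at most `C (log n) ^ θ`. -/
def StageB (A B : MTM) : Prop :=
  ∃ (C θ : ℝ) (K : ℕ) (b l : ℕ → ℕ) (σ ρ : ℕ → ℝ), 0 < C ∧ 0 ≤ θ ∧ θ < 1 ∧
    Tendsto ρ atTop (𝓝 0) ∧ ∀ᶠ n : ℕ in atTop,
    (1 ≤ b n ∧ (b n : ℝ) ≤ C * Lg n ^ K) ∧ (1 ≤ l n ∧ 1 + Real.log (l n) ≤ C * Lg n ^ θ) ∧
    σ n ≤ C * (1 + Real.log (Lg n)) ^ K ∧
    (mulTime B n : ℝ) ≤ C * n * (Lg n * ρ n + Lg n ^ θ * (σ n + kap A (b n)) + kap A (l n))

/-- Time `n (log n) ^ O(1)`. -/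
def PolyLogMul (A : MTM) : Prop :=
  ∃ (C : ℝ) (K : ℕ), 0 < C ∧ ∀ n, 1 ≤ n → kap A n ≤ C * Lg n ^ K

/-- Time `n log n (log log n) ^ O(1)`. -/
def NearLogMul (A : MTM) : Prop :=
  ∃ (C : ℝ) (K : ℕ), 0 < C ∧ ∀ n, 1 ≤ n → kap A n ≤ C * (Lg n * (1 + Real.log (Lg n)) ^ K)

theorem log_Lg_nonneg {n : ℕ} (hn : 1 ≤ n) : 0 ≤ Real.log (Lg n) :=
  Real.log_nonneg (one_le_Lg hn)

theorem one_add_log_Lg_le {n : ℕ} (hn : 1 ≤ n) : 1 + Real.log (Lg n) ≤ Lg n := by
  have h1 := one_le_Lg hn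
  have := Real.log_le_sub_one_of_pos (show 0 < Lg n by linarith)
  linarith

/-- Division by `n`. -/
theorem kap_le_of {A : MTM} {n : ℕ} (hn : 1 ≤ n) {C X : ℝ} (h : (mulTime A n : ℝ) ≤ C * n * X) :
    kap A n ≤ C * X := by
  have h0 : (0 : ℝ) < n := by exact_mod_cast hn
  unfold kap
  rw [div_le_iff₀ h0]
  linarith

/-- The schoolbook machine gives `n (log n) ^ O(1)`. -/
theorem polyLog_of_stageA {A B : MTM} (hA : PolyTimeMul A) (h : StageA A B) : PolyLogMul B := by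
  obtain ⟨C0, K0, hA⟩ := hA
  obtain ⟨C, K, b, l, σ, hC, h⟩ := h
  have key : ∀ (n w : ℕ), 1 ≤ n → 1 ≤ w → (w : ℝ) ≤ C * Lg n ^ K →
      kap A w ≤ C0 * (C * Lg n ^ K) ^ K0 := by
    intro n w hn hw hwn
    have hw0 : (1 : ℝ) ≤ w := by exact_mod_cast hw
    have h1 : (mulTime A w : ℝ) ≤ C0 * (w : ℝ) ^ K0 := by exact_mod_cast hA w hw
    calc kap A w ≤ mulTime A w := div_le_self (Nat.cast_nonneg _) hw0
      _ ≤ C0 * (w : ℝ) ^ K0 := h1
      _ ≤ _ := by gcongr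
  refine ⟨C * (C + 2 * (C0 * C ^ K0)) + 1, K + K * K0 + 1, by positivity, fun n hn => ?_⟩
  obtain ⟨⟨hb1, hb2⟩, ⟨hl1, hl2⟩, hσ, hT⟩ := h n hn
  have hL := one_le_Lg hn
  have hL0 : 0 ≤ Lg n := by linarith
  have h1 := key n (b n) hn hb1 hb2
  have h2 := key n (l n) hn hl1 hl2
  have h3 := kap_le_of hn hT
  have h4 : (1 + Real.log (Lg n)) ^ K ≤ Lg n ^ K :=
    pow_le_pow_left₀ (by have := log_Lg_nonneg hn; linarith) (one_add_log_Lg_le hn) K
  have hpow : ∀ i, i ≤ K + K * K0 + 1 → Lg n ^ i ≤ Lg n ^ (K + K * K0 + 1) :=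
    fun i hi => pow_le_pow_right₀ hL hi
  have e1 : Lg n * σ n ≤ C * Lg n ^ (K + K * K0 + 1) := by
    calc Lg n * σ n ≤ Lg n * (C * Lg n ^ K) := by
          apply mul_le_mul_of_nonneg_left _ hL0
          exact hσ.trans (mul_le_mul_of_nonneg_left h4 hC.le)
      _ = C * Lg n ^ (K + 1) := by ring
      _ ≤ _ := mul_le_mul_of_nonneg_left (hpow _ (by nlinarith [Nat.zero_le (K * K0)])) hC.le
  have e2 : Lg n * kap A (b n) ≤ C0 * C ^ K0 * Lg n ^ (K + K * K0 + 1) := by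
    calc Lg n * kap A (b n) ≤ Lg n * (C0 * (C * Lg n ^ K) ^ K0) :=
          mul_le_mul_of_nonneg_left h1 hL0
      _ = C0 * C ^ K0 * Lg n ^ (K * K0 + 1) := by rw [mul_pow, ← pow_mul]; ring
      _ ≤ _ := mul_le_mul_of_nonneg_left (hpow _ (by omega)) (by positivity)
  have e3 : kap A (l n) ≤ C0 * C ^ K0 * Lg n ^ (K + K * K0 + 1) := by
    calc kap A (l n) ≤ C0 * (C * Lg n ^ K) ^ K0 := h2
      _ = C0 * C ^ K0 * Lg n ^ (K * K0) := by rw [mul_pow, ← pow_mul]; ring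
      _ ≤ _ := mul_le_mul_of_nonneg_left (hpow _ (by omega)) (by positivity)
  have hP : 0 ≤ Lg n ^ (K + K * K0 + 1) := by positivity
  calc kap B n ≤ C * (Lg n * (σ n + kap A (b n)) + kap A (l n)) := h3
    _ ≤ C * (C * Lg n ^ (K + K * K0 + 1) + C0 * C ^ K0 * Lg n ^ (K + K * K0 + 1) +
          C0 * C ^ K0 * Lg n ^ (K + K * K0 + 1)) := by
        apply mul_le_mul_of_nonneg_left _ hC.le
        rw [mul_add]
        linarith
    _ ≤ _ := by nlinarith

/-- The second stage. -/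
theorem nearLog_of_stageA {A B : MTM} (hA : PolyLogMul A) (h : StageA A B) : NearLogMul B := by
  obtain ⟨C0, K0, hC0, hA⟩ := hA
  obtain ⟨C, K, b, l, σ, hC, h⟩ := h
  obtain ⟨C', hC', hlog⟩ := one_add_log_le K hC
  have key : ∀ (n w : ℕ), 1 ≤ n → 1 ≤ w → (w : ℝ) ≤ C * Lg n ^ K →
      kap A w ≤ C0 * (C' * (1 + Real.log (Lg n))) ^ K0 := by
    intro n w hn hw hwn
    have hw0 : (1 : ℝ) ≤ w := by exact_mod_cast hw
    have h1 : Lg w ≤ C' * (1 + Real.log (Lg n)) := hlog _ _ (one_le_Lg hn) hw0 hwn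
    have h2 := one_le_Lg hw
    exact (hA w hw).trans (mul_le_mul_of_nonneg_left (pow_le_pow_left₀ (by linarith) h1 _) hC0.le)
  refine ⟨C * (C + 2 * (C0 * C' ^ K0)), K + K0, by positivity, fun n hn => ?_⟩
  obtain ⟨⟨hb1, hb2⟩, ⟨hl1, hl2⟩, hσ, hT⟩ := h n hn
  have hL := one_le_Lg hn
  have hL0 : 0 ≤ Lg n := by linarith
  have h1 := key n (b n) hn hb1 hb2
  have h2 := key n (l n) hn hl1 hl2
  have h3 := kap_le_of hn hT
  set M := 1 + Real.log (Lg n) with hM
  have hM1 : 1 ≤ M := by have := log_Lg_nonneg hn; linarith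
  have hpow : ∀ i, i ≤ K + K0 → M ^ i ≤ M ^ (K + K0) := fun i hi => pow_le_pow_right₀ hM1 hi
  have hP : 0 ≤ M ^ (K + K0) := by positivity
  have e1 : Lg n * σ n ≤ Lg n * (C * M ^ (K + K0)) :=
    mul_le_mul_of_nonneg_left (hσ.trans (mul_le_mul_of_nonneg_left (hpow _ (by omega)) hC.le)) hL0
  have e0 : C0 * (C' * M) ^ K0 ≤ C0 * C' ^ K0 * M ^ (K + K0) := by
    rw [mul_pow, ← mul_assoc]
    exact mul_le_mul_of_nonneg_left (hpow _ (by omega)) (by positivity)
  have e2 : Lg n * kap A (b n) ≤ Lg n * (C0 * C' ^ K0 * M ^ (K + K0)) :=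
    mul_le_mul_of_nonneg_left (h1.trans e0) hL0
  have e3 : kap A (l n) ≤ Lg n * (C0 * C' ^ K0 * M ^ (K + K0)) := by
    refine (h2.trans e0).trans ?_
    exact le_mul_of_one_le_left (by positivity) hL
  calc kap B n ≤ C * (Lg n * (σ n + kap A (b n)) + kap A (l n)) := h3
    _ ≤ C * (Lg n * (C * M ^ (K + K0)) + Lg n * (C0 * C' ^ K0 * M ^ (K + K0)) +
          Lg n * (C0 * C' ^ K0 * M ^ (K + K0))) := by
        apply mul_le_mul_of_nonneg_left _ hC.le
        rw [mul_add]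
        linarith
    _ = _ := by ring

/-- `1 + log (C x ^ θ) ≤ C' (1 + log x)` for real exponents `0 ≤ θ ≤ 1`. -/
theorem one_add_log_le' {C θ : ℝ} (hC : 0 < C) (hθ : 0 ≤ θ) (hθ1 : θ ≤ 1) : ∃ C' : ℝ, 1 ≤ C' ∧
    ∀ x y : ℝ, 1 ≤ x → 1 ≤ y → y ≤ C * x ^ θ → 1 + Real.log y ≤ C' * (1 + Real.log x) := by
  refine ⟨1 + |Real.log C| + 1, ?_, fun x y hx hy hyx => ?_⟩
  · have := abs_nonneg (Real.log C)
    linarith
  have h1 : Real.log y ≤ Real.log (C * x ^ θ) := Real.log_le_log (by linarith) hyx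
  rw [Real.log_mul hC.ne' (by positivity), Real.log_rpow (by linarith)] at h1
  have h2 := le_abs_self (Real.log C)
  have h3 := Real.log_nonneg hx
  have h4 := abs_nonneg (Real.log C)
  nlinarith [mul_nonneg h4 h3, mul_le_mul_of_nonneg_right hθ1 h3]

/-- The third stage. -/
theorem fastAlways_of_stageB {A B : MTM} (hA : NearLogMul A) (h : StageB A B) : FastAlways B := by
  obtain ⟨C0, K0, hC0, hA⟩ := hA
  obtain ⟨C, θ, K, b, l, σ, ρ, hC, hθ, hθ1, hρ, h⟩ := h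
  obtain ⟨C1, hC1, hlog1⟩ := one_add_log_le K hC
  obtain ⟨C2, hC2, hlog2⟩ := one_add_log_le' hC hθ hθ1.le
  -- everything is at most `C n (Lg ρ + C3 Lg ^ θ M ^ K3)`
  set K3 := K + (K0 + 1 + K0) with hK3
  set C3 := C + C0 * (C1 * (2 * C1) ^ K0) + C0 * (C * C2 ^ K0) with hC3
  have hC3p : 0 < C3 := by positivity
  have main : ∀ᶠ n : ℕ in atTop, kap B n ≤
      C * (Lg n * ρ n + C3 * (Lg n ^ θ * (1 + Real.log (Lg n)) ^ K3)) := by
    filter_upwards [h, eventually_ge_atTop 1] with n hn hn1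
    obtain ⟨⟨hb1, hb2⟩, ⟨hl1, hl2⟩, hσ, hT⟩ := hn
    have hL := one_le_Lg hn1
    have hL0 : 0 ≤ Lg n := by linarith
    have h3 := kap_le_of hn1 hT
    set M := 1 + Real.log (Lg n) with hM
    have hM1 : 1 ≤ M := by have := log_Lg_nonneg hn1; linarith
    have hpow : ∀ i, i ≤ K3 → M ^ i ≤ M ^ K3 := fun i hi => pow_le_pow_right₀ hM1 hi
    have hLθ : 0 ≤ Lg n ^ θ := by positivity
    have e1 : Lg n ^ θ * σ n ≤ C * (Lg n ^ θ * M ^ K3) := by
      calc Lg n ^ θ * σ n ≤ Lg n ^ θ * (C * M ^ K3) :=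
            mul_le_mul_of_nonneg_left
              (hσ.trans (mul_le_mul_of_nonneg_left (hpow _ (by omega)) hC.le)) hLθ
        _ = _ := by ring
    have e2 : Lg n ^ θ * kap A (b n) ≤ C0 * (C1 * (2 * C1) ^ K0) * (Lg n ^ θ * M ^ K3) := by
      have hb0 : (1 : ℝ) ≤ b n := by exact_mod_cast hb1
      have a1 : Lg (b n) ≤ C1 * M := hlog1 _ _ hL hb0 hb2
      have a0 := one_le_Lg hb1
      have a2 : 1 + Real.log (Lg (b n)) ≤ 2 * C1 * M := by
        have := one_add_log_Lg_le hb1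
        nlinarith
      have a3 : kap A (b n) ≤ C0 * (C1 * M * (2 * C1 * M) ^ K0) := by
        refine (hA _ hb1).trans (mul_le_mul_of_nonneg_left ?_ hC0.le)
        apply mul_le_mul a1 (pow_le_pow_left₀ _ a2 _) _ (by positivity)
        · have := log_Lg_nonneg hb1
          linarith
        · have := log_Lg_nonneg hb1
          positivity
      calc Lg n ^ θ * kap A (b n) ≤ Lg n ^ θ * (C0 * (C1 * M * (2 * C1 * M) ^ K0)) :=
            mul_le_mul_of_nonneg_left a3 hLθ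
        _ = C0 * (C1 * (2 * C1) ^ K0) * (Lg n ^ θ * M ^ (K0 + 1)) := by
            rw [mul_pow (2 * C1) M K0]; ring
        _ ≤ _ := by
            apply mul_le_mul_of_nonneg_left _ (by positivity)
            exact mul_le_mul_of_nonneg_left (hpow _ (by omega)) hLθ
    have e3 : kap A (l n) ≤ C0 * (C * C2 ^ K0) * (Lg n ^ θ * M ^ K3) := by
      have a0 := one_le_Lg hl1
      have a1 : Lg (l n) ≤ C * Lg n ^ θ := hl2
      have a2 : 1 + Real.log (Lg (l n)) ≤ C2 * M := hlog2 _ _ hL a0 a1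
      have a3 : kap A (l n) ≤ C0 * (C * Lg n ^ θ * (C2 * M) ^ K0) := by
        refine (hA _ hl1).trans (mul_le_mul_of_nonneg_left ?_ hC0.le)
        apply mul_le_mul a1 (pow_le_pow_left₀ _ a2 _) _ (by positivity)
        · have := log_Lg_nonneg hl1
          linarith
        · have := log_Lg_nonneg hl1
          positivity
      calc kap A (l n) ≤ C0 * (C * Lg n ^ θ * (C2 * M) ^ K0) := a3
        _ = C0 * (C * C2 ^ K0) * (Lg n ^ θ * M ^ K0) := by rw [mul_pow]; ring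
        _ ≤ _ := by
            apply mul_le_mul_of_nonneg_left _ (by positivity)
            exact mul_le_mul_of_nonneg_left (hpow _ (by omega)) hLθ
    refine h3.trans (mul_le_mul_of_nonneg_left ?_ hC.le)
    have : Lg n ^ θ * (σ n + kap A (b n)) = Lg n ^ θ * σ n + Lg n ^ θ * kap A (b n) := by ring
    rw [this, hC3]
    nlinarith
  -- the limit
  have hLtop : Tendsto (fun n : ℕ => Lg n) atTop atTop :=
    tendsto_atTop_add_const_left _ _ (Real.tendsto_log_atTop.comp tendsto_natCast_atTop_atTop)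
  have hδ : 0 < (1 - θ) / 2 := by linarith
  obtain ⟨C4, hC4, hlp⟩ := log_pow_le hδ K3
  have hlim : Tendsto (fun n : ℕ => 2 * C * ρ n + 2 * C * C3 * C4 * Lg n ^ (-((1 - θ) / 2)))
      atTop (𝓝 0) := by
    have t1 : Tendsto (fun n : ℕ => 2 * C * ρ n) atTop (𝓝 (2 * C * 0)) := hρ.const_mul _
    have t2 : Tendsto (fun n : ℕ => 2 * C * C3 * C4 * Lg n ^ (-((1 - θ) / 2))) atTop
        (𝓝 (2 * C * C3 * C4 * 0)) :=
      ((tendsto_rpow_neg_atTop hδ).comp hLtop).const_mul _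
    simpa using t1.add t2
  intro ε hε
  have hev : ∀ᶠ n : ℕ in atTop, (mulTime B n : ℝ) < ε * (n * Real.log n) := by
    filter_upwards [main, hlim.eventually (gt_mem_nhds hε), eventually_ge_atTop 3,
      hLtop.eventually_ge_atTop 2] with n h1 h2 h3 h4
    have hn0 : (0 : ℝ) < n := by
      have : 0 < n := by omega
      exact_mod_cast this
    have hlogn : Lg n ≤ 2 * Real.log n := by unfold Lg at h4 ⊢; linarith
    have hLn0 : 0 < Lg n := by linarith
    have hlog0 : 0 < Real.log n := by unfold Lg at h4; linarith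
    have b1 : Lg n ^ θ * (1 + Real.log (Lg n)) ^ K3 ≤
        C4 * (Lg n * Lg n ^ (-((1 - θ) / 2))) := by
      calc Lg n ^ θ * (1 + Real.log (Lg n)) ^ K3 ≤ Lg n ^ θ * (C4 * Lg n ^ ((1 - θ) / 2)) :=
            mul_le_mul_of_nonneg_left (hlp _ (by linarith)) (by positivity)
        _ = C4 * (Lg n * Lg n ^ (-((1 - θ) / 2))) := by
            have : Lg n * Lg n ^ (-((1 - θ) / 2)) = Lg n ^ (1 + -((1 - θ) / 2)) := by
              rw [Real.rpow_add hLn0, Real.rpow_one]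
            rw [this, mul_left_comm, ← Real.rpow_add hLn0]
            congr 2
            ring
    have b2 : kap B n ≤ Lg n * (C * ρ n + C * C3 * C4 * Lg n ^ (-((1 - θ) / 2))) := by
      refine h1.trans ?_
      have := mul_le_mul_of_nonneg_left b1 (mul_pos hC hC3p).le
      nlinarith
    have b3 : kap B n < ε * Real.log n := by
      have c1 : 2 * (C * ρ n + C * C3 * C4 * Lg n ^ (-((1 - θ) / 2))) < ε := by linarith
      have c2 : Lg n * (C * ρ n + C * C3 * C4 * Lg n ^ (-((1 - θ) / 2))) <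
          Lg n * (ε / 2) := by
        apply mul_lt_mul_of_pos_left _ hLn0
        linarith
      have c3 : Lg n * (ε / 2) ≤ 2 * Real.log n * (ε / 2) := by
        apply mul_le_mul_of_nonneg_right hlogn (by positivity)
      calc kap B n ≤ _ := b2
        _ < Lg n * (ε / 2) := c2
        _ ≤ 2 * Real.log n * (ε / 2) := c3
        _ = ε * Real.log n := by ring
    unfold kap at b3
    rw [div_lt_iff₀ hn0] at b3
    linarith
  obtain ⟨N, hN⟩ := eventually_atTop.1 hev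
  exact ⟨N, hN⟩

/-- **Three bootstraps**: schoolbook multiplication, twice the core with selector bits only, once
the core with digits. -/
theorem fastAlways_three {A0 A1 A2 A3 : MTM} (h0 : PolyTimeMul A0) (h1 : StageA A0 A1)
    (h2 : StageA A1 A2) (h3 : StageB A2 A3) : FastAlways A3 :=
  fastAlways_of_stageB (nearLog_of_stageA (polyLog_of_stageA h0 h1) h2) h3

/-- The pipeline for every multiplying machine. -/
theorem exists_fast (hA0 : ∃ A0 : MTM, Multiplies A0 ∧ PolyTimeMul A0)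
    (hA : ∀ A : MTM, Multiplies A → ∃ B : MTM, Multiplies B ∧ StageA A B)
    (hB : ∀ A : MTM, Multiplies A → ∃ B : MTM, Multiplies B ∧ StageB A B) :
    ∃ B : MTM, Multiplies B ∧ FastAlways B := by
  obtain ⟨A0, m0, p0⟩ := hA0
  obtain ⟨A1, m1, s1⟩ := hA A0 m0
  obtain ⟨A2, m2, s2⟩ := hA A1 m1
  obtain ⟨A3, m3, s3⟩ := hB A2 m2
  exact ⟨A3, m3, fastAlways_three p0 s1 s2 s3⟩

/-- The negation of Q1. -/
theorem not_all_mulHard (hA0 : ∃ A0 : MTM, Multiplies A0 ∧ PolyTimeMul A0)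
    (hA : ∀ A : MTM, Multiplies A → ∃ B : MTM, Multiplies B ∧ StageA A B)
    (hB : ∀ A : MTM, Multiplies A → ∃ B : MTM, Multiplies B ∧ StageB A B) :
    ¬ ∀ A : MTM, Multiplies A → MulHard A := by
  intro hall
  obtain ⟨B, mB, fB⟩ := exists_fast hA0 hA hB
  exact not_mulHard_of_fastOften fB.often (hall B mB)

end Vale.Agent.P338.R3.H831
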