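import Vale.Agent.P338.R3.H831.NFB
import Vale.Agent.P338.R3.H527.Best

/-!
P338-D: the instance of the normal form for the best short programs of helper527.
-/

namespace Vale.Agent.P338.R3.H831

open Vale.Agent.P338.R2.H898 Vale.Agent.P338.R3.H772 Vale.Agent.P338.R3.H527 Filter Topology

/-- Passes of a zeta step that do not depend on the number of bits. -/
noncomputable def sgB (D : ℕ) : ℝ := 1 + (best D).2.length + (best D).1

/-- The saving of the best program. -/
noncomputable def rtB (D : ℕ) : ℝ := (best D).2.length / ((best D).1 * 2 ^ (best D).1)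

theorem sgB_le (D : ℕ) : sgB D ≤ 5 + 2 * Nat.size D := by
  have h1 := best_length_le D
  have h2 := best_two_pow_le D
  have h3 : (best D).1 ≤ 2 ^ (best D).1 := Nat.lt_two_pow_self.le
  have h4 : 1 + (best D).2.length + (best D).1 ≤ 5 + 2 * Nat.size D := by omega
  unfold sgB
  exact_mod_cast h4

theorem sgB_nonneg (D : ℕ) : 0 ≤ sgB D := by unfold sgB; positivity

theorem rtB_nonneg (D : ℕ) : 0 ≤ rtB D := by unfold rtB; positivity

theorem rtB_le (D : ℕ) : rtB D ≤ sgB D := by
  have h0 := (best_good D).pos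
  have h1 : (1 : ℝ) ≤ (best D).1 * 2 ^ (best D).1 := by
    have a : 1 ≤ (best D).1 * 2 ^ (best D).1 := Nat.mul_pos h0 (by positivity)
    exact_mod_cast a
  have h2 : rtB D ≤ (best D).2.length := div_le_self (Nat.cast_nonneg _) h1
  have h3 : ((best D).2.length : ℝ) ≤ sgB D := by
    unfold sgB
    have : (0 : ℝ) ≤ (best D).1 := Nat.cast_nonneg _
    linarith
  exact h2.trans h3

theorem tendsto_rtB (hPI : ∀ ε : ℝ, 0 < ε → ∃ m l, Good m l ∧
    (l.length : ℝ) ≤ ε * (m * 2 ^ m)) : Tendsto rtB atTop (𝓝 0) := by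
  rw [Metric.tendsto_atTop]
  intro ε hε
  obtain ⟨d0, hd0⟩ := best_eventually hPI (ε / 2) (by positivity)
  refine ⟨d0, fun D hD => ?_⟩
  have h1 := hd0 D hD
  have hb : (0 : ℝ) < (best D).1 * 2 ^ (best D).1 := by
    have := (best_good D).pos
    positivity
  have h2 : rtB D ≤ ε / 2 := by
    unfold rtB
    rwa [div_le_iff₀ hb]
  rw [Real.dist_eq, sub_zero, abs_of_nonneg (rtB_nonneg D)]
  linarith

/-- **Selector bits only**, with the best programs. -/
theorem stageA_of_best {A B : MTM} {E : ℕ} {par : ℕ → ℕ × ℕ}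
    (hpar : ∀ n, 1 ≤ n → (par n).1 = 0) (h : NF A B E sgB rtB par) : StageA A B :=
  stageA_of_NF sgB_le rtB_le sgB_nonneg hpar h

/-- **The core with digits**, with the best programs. -/
theorem stageB_of_best (hPI : ∀ ε : ℝ, 0 < ε → ∃ m l, Good m l ∧
    (l.length : ℝ) ≤ ε * (m * 2 ^ m)) {A B : MTM} {E : ℕ} {par : ℕ → ℕ × ℕ} {c : ℝ} (hc : 0 < c)
    (hpar : Tendsto (fun n => (par n).1) atTop atTop)
    (hpar2 : ∀ᶠ n in atTop, ((par n).2 : ℝ) ≤ c * (((par n).1 : ℝ) ^ 2 + 1))
    (h : NF A B E sgB rtB par) : StageB A B :=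
  stageB_of_NF sgB_le sgB_nonneg rtB_nonneg (tendsto_rtB hPI) hc hpar hpar2 h

end Vale.Agent.P338.R3.H831
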