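import Vale.Agent.P338.R3.H831.End3
import Vale.Agent.P338.R3.H121.Params

/-!
P338-D: from the cost of the core in the parameters `(d, s, y)` (normal form `NF`) to the stages
`StageA`, `StageB` of the three-stage end.
-/

namespace Vale.Agent.P338.R3.H831

open Vale.Agent.P338.R2.H898 Vale.Agent.P338.R3.H772 Vale.Agent.P338.R3.H121
open Vale.Agent.P338.R3.H501.Rad Filter Topology

/-- **The normal form of the cost.** `sg D` is the number of passes of one zeta step that do not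
depend on the number of bits, `rt D` the saving. -/
def NF (A B : MTM) (E : ℕ) (sg rt : ℕ → ℝ) (par : ℕ → ℕ × ℕ) : Prop :=
  ∃ (C : ℝ) (K : ℕ) (D b l : ℕ → ℕ → ℕ), 0 < C ∧ ∀ n, 1 ≤ n → ∀ d s y, par n = (d, s) →
    y = yE E d s → 1 ≤ s ∧ (d ≤ D d s ∧ (D d s : ℝ) ≤ C * (d + s + 1 : ℝ) ^ K) ∧
      (1 ≤ b d s ∧ (b d s : ℝ) ≤ C * bW d s y) ∧ (1 ≤ l d s ∧ (l d s : ℝ) ≤ C * ell d s y) ∧
      (cap d s y : ℝ) ≤ C * n ∧
      (mulTime B n : ℝ) ≤ C * cap d s y * ((s + aR d * (Nat.sqrt d + 1)) *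
        (sg (D d s) + kap A (b d s)) + (s + aR d * d) * rt (D d s) + kap A (l d s))

theorem two_pow_size_le {s : ℕ} (hs : 1 ≤ s) : 2 ^ Nat.size s ≤ 2 * s := by
  have h0 : 0 < Nat.size s := Nat.size_pos.2 (by omega)
  have h1 : 2 ^ (Nat.size s - 1) ≤ s := Nat.lt_size.1 (by omega)
  obtain ⟨k, hk⟩ : ∃ k, Nat.size s = k + 1 := ⟨Nat.size s - 1, by omega⟩
  rw [hk, Nat.add_sub_cancel] at h1
  rw [hk, pow_succ]
  omega

theorem size_le_self' (s : ℕ) : Nat.size s ≤ s := Nat.size_le.2 Nat.lt_two_pow_self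

/-- `size D ≤ 1 + 2 log D`. -/
theorem size_le_log {D : ℕ} (hD : 1 ≤ D) : (Nat.size D : ℝ) ≤ 1 + 2 * Real.log D := by
  have h := two_pow_size_le hD
  have h1 : ((2 : ℝ) ^ Nat.size D) ≤ 2 * D := by exact_mod_cast h
  have hD0 : (0 : ℝ) < D := by exact_mod_cast hD
  have h2 := Real.log_le_log (by positivity) h1
  rw [Real.log_pow, Real.log_mul (by norm_num) hD0.ne'] at h2
  have h3 := Real.log_two_gt_d9
  have h4 := Real.log_two_lt_d9
  have hlD : 0 ≤ Real.log D := Real.log_nonneg (by exact_mod_cast hD)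
  nlinarith

/-- The index bits are at most a constant times the logarithm of the length. -/
theorem index_le {C : ℝ} (hC : 0 < C) : ∃ C' : ℝ, 1 ≤ C' ∧ ∀ n d s y : ℕ, 1 ≤ n → 1 ≤ s →
    (cap d s y : ℝ) ≤ C * n → (s + aR d * d : ℝ) ≤ C' * Lg n := by
  refine ⟨(1 + |Real.log (4 * C)|) / Real.log 2, ?_, fun n d s y hn hs h => ?_⟩
  · rw [le_div_iff₀ (Real.log_pos (by norm_num))]
    have := Real.log_two_lt_d9
    have := abs_nonneg (Real.log (4 * C))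
    linarith
  have hl2 : 0 < Real.log 2 := Real.log_pos (by norm_num)
  have h1 : 2 ^ (s + aR d * d) ≤ 4 * cap d s y := by
    obtain ⟨s, rfl⟩ := Nat.exists_eq_add_of_le' hs
    have h2 := pow_le_NR d
    have h3 := wW_pos d (s + 1) y
    have h4 : 1 ≤ 2 ^ y := Nat.one_le_two_pow
    unfold cap
    rw [Nat.add_sub_cancel]
    calc 2 ^ (s + 1 + aR d * d) = 2 * 2 ^ s * 2 ^ (aR d * d) := by ring
      _ ≤ 2 * 2 ^ s * (2 * NR d) := by gcongr
      _ = 4 * (2 ^ s * NR d * 1 * 1) := by ring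
      _ ≤ 4 * (2 ^ s * NR d * 2 ^ y * wW d (s + 1) y) := by gcongr; omega
  have hn0 : (0 : ℝ) < n := by exact_mod_cast hn
  have h2 : (2 : ℝ) ^ (s + aR d * d) ≤ 4 * C * n := by
    have : ((2 : ℝ) ^ (s + aR d * d)) ≤ 4 * cap d s y := by exact_mod_cast h1
    linarith
  have h3 := Real.log_le_log (by positivity) h2
  rw [Real.log_pow, Real.log_mul (by positivity) hn0.ne'] at h3
  push_cast at h3
  rw [div_mul_eq_mul_div, le_div_iff₀ hl2]
  have h4 := le_abs_self (Real.log (4 * C))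
  have h5 := abs_nonneg (Real.log (4 * C))
  have h6 : 0 ≤ Real.log n := Real.log_nonneg (by exact_mod_cast hn)
  unfold Lg
  nlinarith [mul_nonneg h5 h6]

/-- The program search: bounds for `sg (D d s)`. -/
theorem sg_le {sg : ℕ → ℝ} (hsg : ∀ D, sg D ≤ 5 + 2 * Nat.size D) {C C' : ℝ} (K : ℕ) (hC : 0 < C)
    (hC' : 1 ≤ C') : ∃ C1 : ℝ, 0 < C1 ∧ ∀ n d s D : ℕ, 1 ≤ n →
      (s + aR d * d : ℝ) ≤ C' * Lg n → (D : ℝ) ≤ C * (d + s + 1 : ℝ) ^ K →
      sg D ≤ C1 * (1 + Real.log (Lg n)) := by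
  obtain ⟨C2, hC2, h2⟩ := one_add_log_le (C := C * (2 * C') ^ K) K (by positivity)
  refine ⟨7 + 4 * C2, by positivity, fun n d s D hn hds hD => ?_⟩
  have hL := one_le_Lg hn
  have hlL := log_Lg_nonneg hn
  have e1 : (d + s + 1 : ℝ) ≤ 2 * C' * Lg n := by
    have hd : (d : ℝ) ≤ aR d * d := by
      have : 1 ≤ aR d := by unfold aR; omega
      have : d ≤ aR d * d := Nat.le_mul_of_pos_left _ (by omega)
      exact_mod_cast this
    nlinarith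
  rcases Nat.eq_zero_or_pos D with rfl | hD0
  · have := hsg 0
    rw [Nat.size_zero] at this
    push_cast at this
    nlinarith
  have hD1 : (1 : ℝ) ≤ D := by exact_mod_cast hD0
  have e2 : (D : ℝ) ≤ C * (2 * C') ^ K * Lg n ^ K := by
    refine hD.trans ?_
    rw [mul_assoc, ← mul_pow]
    apply mul_le_mul_of_nonneg_left _ hC.le
    exact pow_le_pow_left₀ (by positivity) e1 K
  have e3 := h2 _ _ hL hD1 e2
  have e4 := size_le_log hD0
  have e5 := hsg D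
  nlinarith

theorem yA_le (E s : ℕ) : yE E 0 s ≤ E * (s + 3) := by
  rw [yE]
  have := size_le_self' s
  have : aR 0 = 3 := by rfl
  exact Nat.mul_le_mul_left _ (by omega)

theorem bWA_le (E s : ℕ) : (bW 0 s (yE E 0 s) : ℝ) ≤ 2 ^ 16 * ((E + 1) * (s + 4)) ^ 8 := by
  have e : bW 0 s (yE E 0 s) ≤ 2 ^ 16 * ((E + 1) * (s + 4)) ^ 8 := by
    unfold bW wW
    have := yA_le E s
    have : 0 + s + yE E 0 s + 4 ≤ (E + 1) * (s + 4) := by nlinarith
    calc 64 * (2 ^ 10 * (0 + s + yE E 0 s + 4) ^ 8) = 2 ^ 16 * (0 + s + yE E 0 s + 4) ^ 8 := by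
          ring
      _ ≤ _ := by gcongr
  exact_mod_cast e

theorem two_pow_yA_le (E : ℕ) {s : ℕ} (hs1 : 1 ≤ s) :
    (2 : ℝ) ^ yE E 0 s ≤ (16 * (s + 4)) ^ E := by
  have e : 2 ^ yE E 0 s ≤ (16 * (s + 4)) ^ E := by
    rw [yE, mul_comm, pow_mul]
    apply Nat.pow_le_pow_left
    have h3 := two_pow_size_le hs1
    have : aR 0 = 3 := rfl
    rw [this, pow_add]
    omega
  exact_mod_cast e

theorem ellA_le (E : ℕ) {s : ℕ} (hs1 : 1 ≤ s) : (ell 0 s (yE E 0 s) : ℝ) ≤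
    2 ^ 17 * (16 * (E + 1)) ^ (E + 8) * (s + 4) ^ (E + 8) := by
  have hbW := bWA_le E s
  have h2y := two_pow_yA_le E hs1
  have hE0 : (0 : ℝ) ≤ E := Nat.cast_nonneg _
  have hs0 : (0 : ℝ) ≤ s := Nat.cast_nonneg _
  have e1 : (16 * (s + 4) : ℝ) ^ E ≤ (16 * (E + 1) * (s + 4)) ^ E := by
    apply pow_le_pow_left₀ (by positivity)
    nlinarith
  have e2 : ((E + 1) * (s + 4) : ℝ) ^ 8 ≤ (16 * (E + 1) * (s + 4)) ^ 8 := by
    apply pow_le_pow_left₀ (by positivity)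
    nlinarith
  have e3 := h2y.trans e1
  have e4 : (bW 0 s (yE E 0 s) : ℝ) ≤ 2 ^ 16 * (16 * (E + 1) * (s + 4)) ^ 8 :=
    hbW.trans (mul_le_mul_of_nonneg_left e2 (by positivity))
  have e5 : ((ell 0 s (yE E 0 s) : ℕ) : ℝ) = 2 * (2 ^ yE E 0 s * bW 0 s (yE E 0 s)) := by
    unfold ell
    push_cast
    ring
  rw [e5]
  calc 2 * ((2 : ℝ) ^ yE E 0 s * bW 0 s (yE E 0 s))
      ≤ 2 * ((16 * (E + 1) * (s + 4)) ^ E * (2 ^ 16 * (16 * (E + 1) * (s + 4)) ^ 8)) := by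
        apply mul_le_mul_of_nonneg_left _ (by norm_num)
        exact mul_le_mul e3 e4 (Nat.cast_nonneg _) (by positivity)
    _ = 2 ^ 17 * (16 * (E + 1) * (s + 4)) ^ (E + 8) := by rw [pow_add _ E 8]; ring
    _ = _ := by rw [mul_pow (16 * ((E : ℝ) + 1)) _ (E + 8)]; ring

theorem exists_QA (E : ℕ) {C C' : ℝ} (hC : 0 < C) (hC' : 1 ≤ C') : ∃ Q : ℝ, 0 < Q ∧
    ∀ (s : ℕ) (x : ℝ), 1 ≤ s → 1 ≤ x → (s : ℝ) ≤ C' * x →
      C * bW 0 s (yE E 0 s) ≤ Q * x ^ (E + 8) ∧ C * ell 0 s (yE E 0 s) ≤ Q * x ^ (E + 8) := by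
  have hE0 : (0 : ℝ) ≤ E := Nat.cast_nonneg _
  refine ⟨C * (2 ^ 17 * (16 * (E + 1)) ^ (E + 8)) * (5 * C') ^ (E + 8), by positivity,
    fun s x hs hx hsx => ?_⟩
  have h1 := ellA_le E hs
  have h2 : (bW 0 s (yE E 0 s) : ℝ) ≤ ell 0 s (yE E 0 s) := by
    have : bW 0 s (yE E 0 s) ≤ ell 0 s (yE E 0 s) := by
      unfold ell
      exact Nat.le_mul_of_pos_left _ (by positivity)
    exact_mod_cast this
  have h3 : (s + 4 : ℝ) ≤ 5 * C' * x := by nlinarith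
  have h4 : (s + 4 : ℝ) ^ (E + 8) ≤ (5 * C') ^ (E + 8) * x ^ (E + 8) := by
    rw [← mul_pow]
    exact pow_le_pow_left₀ (by positivity) h3 _
  have h5 : C * ell 0 s (yE E 0 s) ≤
      C * (2 ^ 17 * (16 * (E + 1)) ^ (E + 8)) * (5 * C') ^ (E + 8) * x ^ (E + 8) := by
    calc C * ell 0 s (yE E 0 s)
        ≤ C * (2 ^ 17 * (16 * (E + 1)) ^ (E + 8) * (s + 4) ^ (E + 8)) :=
          mul_le_mul_of_nonneg_left h1 hC.le
      _ ≤ C * (2 ^ 17 * (16 * (E + 1)) ^ (E + 8) * ((5 * C') ^ (E + 8) * x ^ (E + 8))) := by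
          apply mul_le_mul_of_nonneg_left _ hC.le
          exact mul_le_mul_of_nonneg_left h4 (by positivity)
      _ = _ := by ring
  exact ⟨(mul_le_mul_of_nonneg_left h2 hC.le).trans h5, h5⟩

/-- The last inequality of stage A. -/
theorem stageA_real {C C' T cp n s L S kb kl r : ℝ} (hC : 0 < C) (hC' : 1 ≤ C') (hn : 0 ≤ n)
    (hL : 1 ≤ L) (hs : 0 ≤ s) (hS : 0 ≤ S) (hkb : 0 ≤ kb) (hkl : 0 ≤ kl) (hr : r ≤ S)
    (hcp : cp ≤ C * n) (hcp0 : 0 ≤ cp) (hsL : s ≤ C' * L)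
    (hT : T ≤ C * cp * ((s + 3 * (0 + 1)) * (S + kb) + (s + 3 * 0) * r + kl)) :
    T ≤ C * C * (4 * C' + 1) * n * (L * (2 * S + kb) + kl) := by
  have e1 : (s + 3 * (0 + 1)) ≤ 4 * C' * L := by nlinarith
  have e2 : (s + 3 * 0) * r ≤ C' * L * S := by
    rw [mul_zero, add_zero]
    exact (mul_le_mul_of_nonneg_left hr hs).trans (mul_le_mul_of_nonneg_right hsL hS)
  have e3 : (s + 3 * (0 + 1)) * (S + kb) ≤ 4 * C' * L * (S + kb) :=
    mul_le_mul_of_nonneg_right e1 (by linarith)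
  have hCL : 0 ≤ C' * L := by positivity
  have e6 : 0 ≤ C' * L * S := by positivity
  have e7 : 0 ≤ C' * L * kb := by positivity
  have e8 : 0 ≤ C' * kl := by positivity
  have e9 : 0 ≤ L * S := by positivity
  have e10 : 0 ≤ L * kb := by positivity
  have e5 : (s + 3 * (0 + 1)) * (S + kb) + (s + 3 * 0) * r + kl ≤
      (4 * C' + 1) * (L * (2 * S + kb) + kl) := by nlinarith
  have e4 : 0 ≤ (4 * C' + 1) * (L * (2 * S + kb) + kl) := by positivity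
  calc T ≤ C * cp * ((4 * C' + 1) * (L * (2 * S + kb) + kl)) :=
        hT.trans (mul_le_mul_of_nonneg_left e5 (by positivity))
    _ ≤ C * (C * n) * ((4 * C' + 1) * (L * (2 * S + kb) + kl)) :=
        mul_le_mul_of_nonneg_right (mul_le_mul_of_nonneg_left hcp hC.le) e4
    _ = _ := by ring

/-- **Selector bits only.** -/
theorem stageA_of_NF {A B : MTM} {E : ℕ} {sg rt : ℕ → ℝ} {par : ℕ → ℕ × ℕ}
    (hsg : ∀ D, sg D ≤ 5 + 2 * Nat.size D) (hrt : ∀ D, rt D ≤ sg D) (h0 : ∀ D, 0 ≤ sg D)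
    (hpar : ∀ n, 1 ≤ n → (par n).1 = 0) (h : NF A B E sg rt par) : StageA A B := by
  obtain ⟨C, K, D, b, l, hC, h⟩ := h
  obtain ⟨C', hC', hidx⟩ := index_le hC
  obtain ⟨C1, hC1, hsgle⟩ := sg_le hsg K hC hC'
  obtain ⟨Q, hQ, hQA⟩ := exists_QA E hC hC'
  obtain ⟨X, hX0, hX1, hX2, hX3⟩ : ∃ X : ℝ, 0 < X ∧ Q ≤ X ∧ 2 * C1 ≤ X ∧
      C * C * (4 * C' + 1) ≤ X := by
    have h1 : 0 < C * C * (4 * C' + 1) := by positivity
    exact ⟨Q + 2 * C1 + C * C * (4 * C' + 1), by positivity, by linarith, by linarith,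
      by linarith⟩
  refine ⟨X, E + 8, fun n => b 0 (par n).2, fun n => l 0 (par n).2,
    fun n => 2 * sg (D 0 (par n).2), hX0, fun n hn => ?_⟩
  obtain ⟨s, hs⟩ : ∃ s, s = (par n).2 := ⟨_, rfl⟩
  have hp : par n = (0, s) := by rw [hs, ← hpar n hn]
  obtain ⟨hs1, ⟨-, hD⟩, ⟨hb1, hb2⟩, ⟨hl1, hl2⟩, hcap, hT⟩ := h n hn 0 s _ hp rfl
  have hL := one_le_Lg hn
  have hidx1 := hidx n 0 s _ hn hs1 hcap
  have hsL : (s : ℝ) ≤ C' * Lg n := by simpa using hidx1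
  obtain ⟨q1, q2⟩ := hQA s (Lg n) hs1 hL hsL
  have hlP : (0 : ℝ) ≤ Lg n ^ (E + 8) := by positivity
  have e1 := hsgle n 0 s (D 0 s) hn hidx1 hD
  have hM : 1 ≤ 1 + Real.log (Lg n) := by have := log_Lg_nonneg hn; linarith
  have e2 : 1 + Real.log (Lg n) ≤ (1 + Real.log (Lg n)) ^ (E + 8) :=
    le_self_pow₀ hM (by omega)
  simp only [← hs]
  refine ⟨⟨hb1, (hb2.trans q1).trans (mul_le_mul_of_nonneg_right hX1 hlP)⟩,
    ⟨hl1, (hl2.trans q2).trans (mul_le_mul_of_nonneg_right hX1 hlP)⟩, ?_, ?_⟩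
  · calc 2 * sg (D 0 s) ≤ 2 * C1 * (1 + Real.log (Lg n)) := by linarith
      _ ≤ X * (1 + Real.log (Lg n)) ^ (E + 8) := mul_le_mul hX2 e2 (by linarith) hX0.le
  · have k1 := kap_nonneg A (b 0 s)
    have k2 := kap_nonneg A (l 0 s)
    have k3 := h0 (D 0 s)
    have e0 : aR 0 = 3 := rfl
    rw [e0, Nat.sqrt_zero] at hT
    push_cast at hT
    have := stageA_real hC hC' (Nat.cast_nonneg n) hL (Nat.cast_nonneg s) k3 k1 k2
      (hrt (D 0 s)) hcap (Nat.cast_nonneg _) hsL hT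
    refine this.trans ?_
    apply mul_le_mul_of_nonneg_right _ (by positivity)
    exact mul_le_mul_of_nonneg_right hX3 (Nat.cast_nonneg _)

end Vale.Agent.P338.R3.H831
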