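import Vale.Agent.P338.R3.H831.NF

/-!
P338-D: from the normal form `NF` of the cost to `StageB` (the core with digits).
-/

namespace Vale.Agent.P338.R3.H831

open Vale.Agent.P338.R2.H898 Vale.Agent.P338.R3.H772 Vale.Agent.P338.R3.H121
open Vale.Agent.P338.R3.H501.Rad Filter Topology

/-- The size of the parameters, `s ≤ c (d² + 1)`. -/
theorem dims_le (E : ℕ) {c : ℝ} (hc : 0 < c) : ∃ c0 : ℝ, 1 ≤ c0 ∧ ∀ d s : ℕ, 1 ≤ d →
    (s : ℝ) ≤ c * ((d : ℝ) ^ 2 + 1) →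
      ((d + s + yE E d s + 4 : ℕ) : ℝ) ≤ c0 * (d : ℝ) ^ 2 := by
  refine ⟨5 + 2 * c + E * (4 + 2 * c), ?_, fun d s hd hs => ?_⟩
  · have : (0 : ℝ) ≤ E * (4 + 2 * c) := by positivity
    linarith
  have hd1 : (1 : ℝ) ≤ d := by exact_mod_cast hd
  have hd2 : (1 : ℝ) ≤ (d : ℝ) ^ 2 := one_le_pow₀ hd1
  have hd3 : (d : ℝ) ≤ (d : ℝ) ^ 2 := le_self_pow₀ hd1 (by norm_num)
  have hs2 : (s : ℝ) ≤ 2 * c * (d : ℝ) ^ 2 := by nlinarith
  have hy : (yE E d s : ℝ) ≤ E * ((4 + 2 * c) * (d : ℝ) ^ 2) := by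
    have h1 : yE E d s ≤ E * (d ^ 2 + 3 + s) := by
      unfold yE aR
      have := size_le_self' s
      exact Nat.mul_le_mul_left _ (by omega)
    have h2 : (yE E d s : ℝ) ≤ E * ((d : ℝ) ^ 2 + 3 + s) := by exact_mod_cast h1
    refine h2.trans (mul_le_mul_of_nonneg_left ?_ (Nat.cast_nonneg _))
    nlinarith
  push_cast
  nlinarith

theorem bWB_le {c0 : ℝ} {d s y : ℕ} (h : ((d + s + y + 4 : ℕ) : ℝ) ≤ c0 * (d : ℝ) ^ 2) :
    (bW d s y : ℝ) ≤ 2 ^ 16 * (c0 * (d : ℝ) ^ 2) ^ 8 := by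
  have h1 : (bW d s y : ℝ) = 2 ^ 16 * ((d + s + y + 4 : ℕ) : ℝ) ^ 8 := by
    unfold bW wW
    push_cast
    ring
  rw [h1]
  exact mul_le_mul_of_nonneg_left (pow_le_pow_left₀ (Nat.cast_nonneg _) h 8) (by norm_num)

/-- The logarithm of the length of a cell. -/
theorem log_ellB_le {C c0 : ℝ} (hC : 0 < C) (hc0 : 1 ≤ c0) : ∃ c5 : ℝ, 0 < c5 ∧
    ∀ d s y l : ℕ, 1 ≤ d → ((d + s + y + 4 : ℕ) : ℝ) ≤ c0 * (d : ℝ) ^ 2 → 1 ≤ l →
      (l : ℝ) ≤ C * ell d s y → 1 + Real.log l ≤ c5 * (d : ℝ) ^ 2 := by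
  refine ⟨18 + |Real.log C| + 9 * c0, by positivity, fun d s y l hd h hl hlC => ?_⟩
  have hd1 : (1 : ℝ) ≤ d := by exact_mod_cast hd
  have hd2 : (1 : ℝ) ≤ (d : ℝ) ^ 2 := one_le_pow₀ hd1
  have hl0 : (0 : ℝ) < l := by exact_mod_cast hl
  have hx0 : (0 : ℝ) < ((d + s + y + 4 : ℕ) : ℝ) := by positivity
  have e1 : (ell d s y : ℝ) = 2 ^ (y + 1) * (2 ^ 16 * ((d + s + y + 4 : ℕ) : ℝ) ^ 8) := by
    unfold ell bW wW
    push_cast
    ring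
  have e2 := Real.log_le_log hl0 hlC
  rw [e1, Real.log_mul hC.ne' (by positivity), Real.log_mul (by positivity) (by positivity),
    Real.log_mul (by positivity) (by positivity), Real.log_pow, Real.log_pow, Real.log_pow] at e2
  have e3 := Real.log_le_sub_one_of_pos hx0
  have e4 := Real.log_two_lt_d9
  have e4' : 0 < Real.log 2 := Real.log_pos (by norm_num)
  have e5 := le_abs_self (Real.log C)
  have e6 := abs_nonneg (Real.log C)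
  have e7 : ((y + 1 : ℕ) : ℝ) ≤ c0 * (d : ℝ) ^ 2 := by
    refine le_trans ?_ h
    exact_mod_cast (by omega : y + 1 ≤ d + s + y + 4)
  have e8 : ((y + 1 : ℕ) : ℝ) * Real.log 2 ≤ c0 * (d : ℝ) ^ 2 := by
    calc ((y + 1 : ℕ) : ℝ) * Real.log 2 ≤ ((y + 1 : ℕ) : ℝ) * 1 :=
          mul_le_mul_of_nonneg_left (by linarith) (Nat.cast_nonneg _)
      _ ≤ _ := by linarith
  have e9 : ((8 : ℕ) : ℝ) * Real.log ((d + s + y + 4 : ℕ) : ℝ) ≤ 8 * (c0 * (d : ℝ) ^ 2) := by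
    push_cast at e3 h ⊢
    linarith
  have e10 : ((16 : ℕ) : ℝ) * Real.log 2 ≤ 16 := by push_cast; linarith
  have e11 : |Real.log C| ≤ |Real.log C| * (d : ℝ) ^ 2 := by nlinarith
  nlinarith

theorem cube_rpow {d : ℕ} (hd : 1 ≤ d) :
    (d : ℝ) ^ 2 * Real.sqrt d = ((d : ℝ) ^ 3) ^ (5 / 6 : ℝ) := by
  have hd0 : (0 : ℝ) < d := by exact_mod_cast hd
  rw [Real.sqrt_eq_rpow, ← Real.rpow_natCast, ← Real.rpow_natCast, ← Real.rpow_add hd0,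
    ← Real.rpow_mul hd0.le]
  norm_num

/-- Powers of the number of digits. -/
theorem digits_le {C' L : ℝ} {d : ℕ} (hC' : 1 ≤ C') (hL : 1 ≤ L) (hd : 1 ≤ d)
    (h : (d : ℝ) ^ 3 ≤ C' * L) : (d : ℝ) ^ 2 * Real.sqrt d ≤ C' * L ^ (5 / 6 : ℝ) ∧
      (d : ℝ) ^ 2 ≤ C' * L ^ (5 / 6 : ℝ) := by
  have hd1 : (1 : ℝ) ≤ d := by exact_mod_cast hd
  have h1 : (d : ℝ) ^ 2 * Real.sqrt d ≤ C' * L ^ (5 / 6 : ℝ) := by
    rw [cube_rpow hd]
    calc ((d : ℝ) ^ 3) ^ (5 / 6 : ℝ) ≤ (C' * L) ^ (5 / 6 : ℝ) :=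
          Real.rpow_le_rpow (by positivity) h (by norm_num)
      _ = C' ^ (5 / 6 : ℝ) * L ^ (5 / 6 : ℝ) := Real.mul_rpow (by linarith) (by linarith)
      _ ≤ C' * L ^ (5 / 6 : ℝ) := by
          apply mul_le_mul_of_nonneg_right _ (by positivity)
          calc C' ^ (5 / 6 : ℝ) ≤ C' ^ (1 : ℝ) :=
                Real.rpow_le_rpow_of_exponent_le hC' (by norm_num)
            _ = C' := Real.rpow_one _
  refine ⟨h1, le_trans ?_ h1⟩
  have h2 : (1 : ℝ) ≤ Real.sqrt d := by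
    rw [Real.one_le_sqrt]
    exact hd1
  exact le_mul_of_one_le_right (by positivity) h2

/-- The number of passes with products. -/
theorem passes_le {c : ℝ} (hc : 0 < c) {d s : ℕ} (hd : 1 ≤ d)
    (hs : (s : ℝ) ≤ c * ((d : ℝ) ^ 2 + 1)) :
    (s + aR d * (Nat.sqrt d + 1) : ℝ) ≤ (2 * c + 8) * ((d : ℝ) ^ 2 * Real.sqrt d) := by
  have hd1 : (1 : ℝ) ≤ d := by exact_mod_cast hd
  have hd2 : (1 : ℝ) ≤ (d : ℝ) ^ 2 := one_le_pow₀ hd1
  have h2 : (1 : ℝ) ≤ Real.sqrt d := by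
    rw [Real.one_le_sqrt]
    exact hd1
  have h3 : (Nat.sqrt d : ℝ) ≤ Real.sqrt d := Real.nat_sqrt_le_real_sqrt
  have h4 : (aR d : ℝ) ≤ 4 * (d : ℝ) ^ 2 := by
    unfold aR
    push_cast
    nlinarith
  have h5 : (s : ℝ) ≤ 2 * c * ((d : ℝ) ^ 2 * Real.sqrt d) := by
    have : (d : ℝ) ^ 2 ≤ (d : ℝ) ^ 2 * Real.sqrt d := le_mul_of_one_le_right (by positivity) h2
    nlinarith
  have h6 : (aR d * (Nat.sqrt d + 1) : ℝ) ≤ 4 * (d : ℝ) ^ 2 * (2 * Real.sqrt d) := by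
    apply mul_le_mul h4 (by linarith) (by positivity) (by positivity)
  nlinarith

/-- The last inequality of stage B. -/
theorem stageB_real {C C' c7 T cp n L P Z S kb kl r θL : ℝ} (hC : 0 < C) (hC' : 1 ≤ C')
    (hc7 : 0 ≤ c7) (hn : 0 ≤ n) (hL : 1 ≤ L) (hθ : 0 ≤ θL) (hS : 0 ≤ S) (hkb : 0 ≤ kb)
    (hkl : 0 ≤ kl) (hr : 0 ≤ r) (hcp : cp ≤ C * n) (hcp0 : 0 ≤ cp) (hZ : Z ≤ C' * L)
    (hP : P ≤ c7 * θL) (hT : T ≤ C * cp * (P * (S + kb) + Z * r + kl)) :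
    T ≤ C * C * (c7 + C' + 1) * n * (L * r + θL * (S + kb) + kl) := by
  have e1 : P * (S + kb) ≤ c7 * θL * (S + kb) := mul_le_mul_of_nonneg_right hP (by linarith)
  have e2 : Z * r ≤ C' * L * r := mul_le_mul_of_nonneg_right hZ hr
  have a1 : 0 ≤ L * r := by positivity
  have a2 : 0 ≤ θL * (S + kb) := by positivity
  have a3 : 0 ≤ c7 * (L * r) := by positivity
  have a4 : 0 ≤ c7 * kl := by positivity
  have a5 : 0 ≤ C' * (θL * (S + kb)) := by positivity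
  have a6 : 0 ≤ C' * kl := by positivity
  have e5 : P * (S + kb) + Z * r + kl ≤ (c7 + C' + 1) * (L * r + θL * (S + kb) + kl) := by
    nlinarith
  have e4 : 0 ≤ (c7 + C' + 1) * (L * r + θL * (S + kb) + kl) := by positivity
  calc T ≤ C * cp * ((c7 + C' + 1) * (L * r + θL * (S + kb) + kl)) :=
        hT.trans (mul_le_mul_of_nonneg_left e5 (by positivity))
    _ ≤ C * (C * n) * ((c7 + C' + 1) * (L * r + θL * (S + kb) + kl)) :=
        mul_le_mul_of_nonneg_right (mul_le_mul_of_nonneg_left hcp hC.le) e4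
    _ = _ := by ring

/-- **The core with digits.** -/
theorem stageB_of_NF {A B : MTM} {E : ℕ} {sg rt : ℕ → ℝ} {par : ℕ → ℕ × ℕ} {c : ℝ}
    (hsg : ∀ D, sg D ≤ 5 + 2 * Nat.size D) (h0 : ∀ D, 0 ≤ sg D) (hr0 : ∀ D, 0 ≤ rt D)
    (hrt : Tendsto rt atTop (𝓝 0)) (hc : 0 < c)
    (hpar : Tendsto (fun n => (par n).1) atTop atTop)
    (hpar2 : ∀ᶠ n in atTop, ((par n).2 : ℝ) ≤ c * (((par n).1 : ℝ) ^ 2 + 1))
    (h : NF A B E sg rt par) : StageB A B := by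
  obtain ⟨C, K, D, b, l, hC, h⟩ := h
  obtain ⟨C', hC', hidx⟩ := index_le hC
  obtain ⟨C1, hC1, hsgle⟩ := sg_le hsg K hC hC'
  obtain ⟨c0, hc0, hdims⟩ := dims_le E hc
  obtain ⟨c5, hc5, hlog⟩ := log_ellB_le hC hc0
  obtain ⟨X, hX0, hX1, hX2, hX3, hX4⟩ : ∃ X : ℝ, 0 < X ∧ C * (2 ^ 16 * c0 ^ 8 * C' ^ 16) ≤ X ∧
      C1 ≤ X ∧ c5 * C' ≤ X ∧ C * C * ((2 * c + 8) * C' + C' + 1) ≤ X := by
    have a1 : 0 < C * (2 ^ 16 * c0 ^ 8 * C' ^ 16) := by positivity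
    have a3 : 0 < c5 * C' := by positivity
    have a4 : 0 < C * C * ((2 * c + 8) * C' + C' + 1) := by positivity
    exact ⟨C * (2 ^ 16 * c0 ^ 8 * C' ^ 16) + C1 + c5 * C' +
      C * C * ((2 * c + 8) * C' + C' + 1), by positivity, by linarith, by linarith, by linarith,
      by linarith⟩
  refine ⟨X, 5 / 6, 16, fun n => b (par n).1 (par n).2, fun n => l (par n).1 (par n).2,
    fun n => sg (D (par n).1 (par n).2), fun n => rt (D (par n).1 (par n).2), hX0, by norm_num,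
    by norm_num, ?_, ?_⟩
  · apply hrt.comp
    apply tendsto_atTop_mono' _ _ hpar
    filter_upwards [eventually_ge_atTop 1] with n hn
    exact (h n hn _ _ _ rfl rfl).2.1.1
  filter_upwards [eventually_ge_atTop 1, hpar2, hpar.eventually_ge_atTop 1] with n hn hs hd
  obtain ⟨d, s, hds⟩ : ∃ d s, par n = (d, s) := ⟨_, _, rfl⟩
  rw [hds] at hs hd ⊢
  simp only at hs hd ⊢
  obtain ⟨hs1, ⟨hD1, hD⟩, ⟨hb1, hb2⟩, ⟨hl1, hl2⟩, hcap, hT⟩ := h n hn d s _ hds rfl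
  have hL := one_le_Lg hn
  have hd1 : (1 : ℝ) ≤ d := by exact_mod_cast hd
  have hidx1 := hidx n d s _ hn hs1 hcap
  have hd3 : (d : ℝ) ^ 3 ≤ C' * Lg n := by
    refine le_trans ?_ hidx1
    have : (d : ℝ) ^ 2 ≤ aR d := by unfold aR; push_cast; linarith
    have hs0 : (0 : ℝ) ≤ s := Nat.cast_nonneg _
    nlinarith
  obtain ⟨g1, g2⟩ := digits_le hC' hL hd hd3
  have hdim := hdims d s hd hs
  have hθ : 0 ≤ Lg n ^ (5 / 6 : ℝ) := by positivity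
  refine ⟨⟨hb1, ?_⟩, ⟨hl1, ?_⟩, ?_, ?_⟩
  · have e1 := bWB_le hdim
    have e2 : (d : ℝ) ^ 16 ≤ C' ^ 16 * Lg n ^ 16 := by
      rw [← mul_pow]
      apply pow_le_pow_left₀ (by positivity)
      exact (le_self_pow₀ hd1 (by norm_num)).trans hd3
    calc (b d s : ℝ) ≤ C * bW d s (yE E d s) := hb2
      _ ≤ C * (2 ^ 16 * (c0 * (d : ℝ) ^ 2) ^ 8) := mul_le_mul_of_nonneg_left e1 hC.le
      _ = C * (2 ^ 16 * c0 ^ 8) * (d : ℝ) ^ 16 := by ring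
      _ ≤ C * (2 ^ 16 * c0 ^ 8) * (C' ^ 16 * Lg n ^ 16) :=
          mul_le_mul_of_nonneg_left e2 (by positivity)
      _ = C * (2 ^ 16 * c0 ^ 8 * C' ^ 16) * Lg n ^ 16 := by ring
      _ ≤ X * Lg n ^ 16 := mul_le_mul_of_nonneg_right hX1 (by positivity)
  · have e1 := hlog d s _ (l d s) hd hdim hl1 hl2
    calc 1 + Real.log (l d s) ≤ c5 * (d : ℝ) ^ 2 := e1
      _ ≤ c5 * (C' * Lg n ^ (5 / 6 : ℝ)) := mul_le_mul_of_nonneg_left g2 hc5.le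
      _ = c5 * C' * Lg n ^ (5 / 6 : ℝ) := by ring
      _ ≤ _ := mul_le_mul_of_nonneg_right hX3 hθ
  · have e1 := hsgle n d s (D d s) hn hidx1 hD
    have hM : 1 ≤ 1 + Real.log (Lg n) := by have := log_Lg_nonneg hn; linarith
    have e2 : 1 + Real.log (Lg n) ≤ (1 + Real.log (Lg n)) ^ 16 := le_self_pow₀ hM (by norm_num)
    calc sg (D d s) ≤ C1 * (1 + Real.log (Lg n)) := e1
      _ ≤ X * (1 + Real.log (Lg n)) ^ 16 := mul_le_mul hX2 e2 (by linarith) hX0.le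
  · have k1 := kap_nonneg A (b d s)
    have k2 := kap_nonneg A (l d s)
    have hP : (s + aR d * (Nat.sqrt d + 1) : ℝ) ≤ (2 * c + 8) * C' * Lg n ^ (5 / 6 : ℝ) := by
      refine (passes_le hc hd hs).trans ?_
      rw [mul_assoc]
      exact mul_le_mul_of_nonneg_left g1 (by positivity)
    have := stageB_real hC hC' (c7 := (2 * c + 8) * C') (by positivity) (Nat.cast_nonneg n) hL hθ
      (h0 (D d s)) k1 k2 (hr0 (D d s)) hcap (Nat.cast_nonneg _) hidx1 hP hT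
    refine this.trans ?_
    apply mul_le_mul_of_nonneg_right
    · exact mul_le_mul_of_nonneg_right hX4 (Nat.cast_nonneg _)
    · have a1 := h0 (D d s)
      have a2 := hr0 (D d s)
      positivity

end Vale.Agent.P338.R3.H831
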